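import Vale.Agent.P099.Backward

namespace Vale.Agent.Results.P099.DirectionInvariant

open MeasureTheory Set Vale.Agent.P099

/-- A triangle is irrational if and only if every flow-invariant (mod null sets) measurable set
that depends only on the direction has Liouville measure `0` or `1`. -/
theorem result (T : Affine.Triangle ℝ ℂ) :
    ¬ IsRational T ↔
      ∀ B : Set Dir, MeasurableSet B →
        (∀ t : ℝ, liouville T (symmDiff (flow T t ⁻¹' (Prod.snd ⁻¹' B)) (Prod.snd ⁻¹' B)) = 0) →
        liouville T (Prod.snd ⁻¹' B) = 0 ∨ liouville T (Prod.snd ⁻¹' B) = 1 := by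
  constructor
  · intro hT B hB hinv
    exact trivial_of_irrational T hT B hB hinv
  · intro h hT
    obtain ⟨B, hB, hinv, h0, h1⟩ := exists_invariant_of_rational T hT
    rcases h B hB hinv with h' | h'
    · exact h0 h'
    · exact h1 h'

end Vale.Agent.Results.P099.DirectionInvariant
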